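import Vale.Agent.P298.H119.Defs

/-!
Definitions for the translation structure proof of `ParamCurves`.
-/

namespace Vale.Agent.P298.H462

open Filter Topology Metric Vale.Agent.P298

/-- The ambient space. -/
abbrev V := Fin 3 → ℂ

/-- The Hamiltonian field of the pair `(f, e)`: the cross product of the two gradients. -/
noncomputable def xi (f e : V → ℂ) (x : V) : V :=
  ![minor2 1 2 f e x, -minor2 0 2 f e x, minor2 0 1 f e x]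

/-- The square of the Euclidean norm. -/
noncomputable def nsq (x : V) : ℝ := ∑ k, ‖x k‖ ^ 2

/-- The Hermitian product of the Hamiltonian field with the position vector. -/
noncomputable def lam (f e : V → ℂ) (x : V) : ℂ :=
  ∑ k, xi f e x k * (starRingEnd ℂ) (x k)

/-- The branches of the curve germ `f = e = 0` at the origin: the arcs `γ i` cover the germ, they
are injective and disjoint outside the origin, and `s ^ c • γ' = u • ξ (γ)` with units `u`. -/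
structure Branches (f e : V → ℂ) (k : ℕ) (γ : Fin k → ℂ → V) (c : Fin k → ℕ)
    (u : Fin k → ℂ → ℂ) (R : ℝ) : Prop where
  pos : 0 < R
  hol : ∀ i, ∀ s ∈ ball (0 : ℂ) R, AnalyticAt ℂ (γ i) s
  zero : ∀ i, γ i 0 = 0
  mem : ∀ i, ∀ s ∈ ball (0 : ℂ) R, f (γ i s) = 0 ∧ e (γ i s) = 0
  inj : ∀ i j, ∀ s ∈ ball (0 : ℂ) R, ∀ s' ∈ ball (0 : ℂ) R, γ i s = γ j s' →
    (s = 0 ∧ s' = 0) ∨ (i = j ∧ s = s')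
  cover : ∀ ε > 0, ∀ᶠ x in 𝓝 (0 : V), f x = 0 → e x = 0 →
    ∃ i, ∃ s ∈ ball (0 : ℂ) ε, x = γ i s
  hol_u : ∀ i, ∀ s ∈ ball (0 : ℂ) R, AnalyticAt ℂ (u i) s
  u_ne : ∀ i, ∀ s ∈ ball (0 : ℂ) R, u i s ≠ 0
  ode : ∀ i, ∀ s ∈ ball (0 : ℂ) R, s ^ c i • deriv (γ i) s = u i s • xi f e (γ i s)

/-- A family of curves `f_t = e_t = 0`, singular at the origin and smooth elsewhere, in a fixed
neighbourhood of the origin. -/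
structure Fam (F E : V → ℂ → ℂ) (ρ₀ δ₀ : ℝ) : Prop where
  rpos : 0 < ρ₀
  dpos : 0 < δ₀
  holF : ∀ x ∈ ball (0 : V) ρ₀, ∀ t ∈ ball (0 : ℂ) δ₀,
    AnalyticAt ℂ (fun p : V × ℂ => F p.1 p.2) (x, t)
  holE : ∀ x ∈ ball (0 : V) ρ₀, ∀ t ∈ ball (0 : ℂ) δ₀,
    AnalyticAt ℂ (fun p : V × ℂ => E p.1 p.2) (x, t)
  F0 : ∀ t ∈ ball (0 : ℂ) δ₀, F 0 t = 0
  E0 : ∀ t ∈ ball (0 : ℂ) δ₀, E 0 t = 0
  xi0 : ∀ t ∈ ball (0 : ℂ) δ₀, xi (F · t) (E · t) 0 = 0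
  xi_ne : ∀ x ∈ ball (0 : V) ρ₀, ∀ t ∈ ball (0 : ℂ) δ₀, F x t = 0 → E x t = 0 → x ≠ 0 →
    xi (F · t) (E · t) x ≠ 0

/-- Petals (row T1-P). -/
def PetalsStmt : Prop :=
  ∀ (c : ℕ) (u : ℂ → ℂ) (ε : ℝ) (ω : ℂ), 1 ≤ c → AnalyticAt ℂ u 0 → u 0 ≠ 0 → 0 < ε → ‖ω‖ = 1 →
    ∃ σ : Fin (c - 1) → ℂ → ℂ,
      (∀ k, ∀ w : ℂ, 0 < w.im → σ k w ∈ ball (0 : ℂ) ε ∧ σ k w ≠ 0 ∧
        HasDerivAt (σ k) (ω * σ k w ^ c / u (σ k w)) w) ∧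
      (∀ k, ∀ η > 0, ∃ T : ℝ, ∀ w : ℂ, 0 < w.im → T ≤ ‖w‖ → ‖σ k w‖ < η) ∧
      ∀ k l, k ≠ l → ∀ b : ℂ, ∃ w : ℂ, 0 < w.im ∧ 0 < (w + b).im ∧ σ k w ≠ σ l (w + b)

/-- The point `x` of the curve is a point where the sphere of radius `ρ` is touched from inside by
a half plane in direction `ω`. -/
def Top (f e : V → ℂ) (ρ : ℝ) (ω : ℂ) (x : V) : Prop :=
  nsq x = ρ ^ 2 ∧ f x = 0 ∧ e x = 0 ∧ ∃ y : ℝ, 0 < y ∧ ω * lam f e x = y * Complex.I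

/-- Count of touching points (row T1-C). -/
def CountStmt : Prop :=
  ∀ (F E : V → ℂ → ℂ) (ρ₀ δ₀ : ℝ), Fam F E ρ₀ δ₀ →
    ∀ (k : ℕ) (γ : Fin k → ℂ → V) (c : Fin k → ℕ) (u : Fin k → ℂ → ℂ) (R : ℝ),
      Branches (F · 0) (E · 0) k γ c u R → (∀ i, 2 ≤ c i) →
      ∃ ρ₁ > 0, ∀ ρ, 0 < ρ → ρ < ρ₁ → ∃ δ > 0, ∀ t ∈ ball (0 : ℂ) δ,
        (∀ x : V, nsq x = ρ ^ 2 → F x t = 0 → E x t = 0 → lam (F · t) (E · t) x ≠ 0) ∧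
        ∀ ω : ℂ, ‖ω‖ = 1 → ∀ S : Finset V, (∀ x ∈ S, Top (F · t) (E · t) ρ ω x) →
          S.card ≤ ∑ i, (c i - 1)

/-- Parametrization over an annulus (row T1-A). -/
def AnnulusStmt : Prop :=
  ∀ (F E : V → ℂ → ℂ) (ρ₀ δ₀ : ℝ), Fam F E ρ₀ δ₀ →
    ∀ (γ : ℂ → V) (c : ℕ) (u : ℂ → ℂ) (R : ℝ), 0 < R →
      (∀ s ∈ ball (0 : ℂ) R, AnalyticAt ℂ γ s ∧ AnalyticAt ℂ u s ∧ u s ≠ 0 ∧
        γ s ∈ ball (0 : V) ρ₀ ∧ F (γ s) 0 = 0 ∧ E (γ s) 0 = 0 ∧ (s ≠ 0 → γ s ≠ 0) ∧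
        s ^ c • deriv γ s = u s • xi (F · 0) (E · 0) (γ s)) → 1 ≤ c → γ 0 = 0 →
      ∃ R₁ > 0, ∀ s₁ s₂ : ℝ, 0 < s₁ → s₁ < s₂ → s₂ < R₁ → ∃ δ > 0,
        ∃ (G : ℂ → ℂ → V) (P : ℂ → ℂ), P 0 = 0 ∧ ContinuousOn P (ball 0 δ) ∧
          (∀ s : ℂ, s₁ < ‖s‖ → ‖s‖ < s₂ → G s 0 = γ s) ∧
          ∀ s : ℂ, s₁ < ‖s‖ → ‖s‖ < s₂ → ∀ t ∈ ball (0 : ℂ) δ,
            AnalyticAt ℂ (fun q : ℂ × ℂ => G q.1 q.2) (s, t) ∧ G s t ∈ ball (0 : V) ρ₀ ∧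
            F (G s t) t = 0 ∧ E (G s t) t = 0 ∧
            s ^ c • deriv (G · t) s = (u s + P t * s ^ (c - 1)) • xi (F · t) (E · t) (G s t)

/-- The half plane property (row T1-E): for every point `q` of the curve on the sphere the flow
of `ξ` exists for all complex times in an open half plane, and tends to `0` at infinity. -/
def HalfPlane (f e : V → ℂ) (ρ : ℝ) : Prop :=
  ∀ q : V, nsq q = ρ ^ 2 → f q = 0 → e q = 0 → ∃ Φ : ℂ → V,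
    (∀ w : ℂ, (w * lam f e q).re < 0 → nsq (Φ w) < ρ ^ 2 ∧ f (Φ w) = 0 ∧ e (Φ w) = 0 ∧
      Φ w ≠ 0 ∧ HasDerivAt Φ (xi f e (Φ w)) w) ∧
    Tendsto Φ (𝓝[{w : ℂ | (w * lam f e q).re < 0}] 0) (𝓝 q) ∧
    ∀ η > 0, ∃ T : ℝ, ∀ w : ℂ, (w * lam f e q).re < 0 → T ≤ ‖w‖ → nsq (Φ w) < η

/-- The node case (row T1-N). -/
def NodeStmt : Prop :=
  ∀ (F E : V → ℂ → ℂ) (ρ₀ δ₀ : ℝ), Fam F E ρ₀ δ₀ →
    ∀ (k : ℕ) (γ : Fin k → ℂ → V) (c : Fin k → ℕ) (u : Fin k → ℂ → ℂ) (R : ℝ),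
      Branches (F · 0) (E · 0) k γ c u R → (∃ i, c i = 1) →
      ∃ (k' : ℕ) (γ' : Fin k' → ℂ → ℂ → V) (ρ : ℝ), H119.ParamCurves F E γ' ρ

/-- The result of the block T1. -/
def T1Stmt : Prop :=
  ∀ (F E : V → ℂ → ℂ) (ρ₀ δ₀ : ℝ), Fam F E ρ₀ δ₀ → ∀ N : ℕ,
    (∀ t ∈ ball (0 : ℂ) δ₀, ∃ (k : ℕ) (γ : Fin k → ℂ → V) (c : Fin k → ℕ) (u : Fin k → ℂ → ℂ)
      (R : ℝ), Branches (F · t) (E · t) k γ c u R ∧ (∀ i, 1 ≤ c i) ∧ ∑ i, (c i - 1) = N) →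
    ∃ (k' : ℕ) (γ' : Fin k' → ℂ → ℂ → V) (ρ : ℝ), H119.ParamCurves F E γ' ρ

end Vale.Agent.P298.H462
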